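import Vale.Agent.P028.MathlibUsed
import Vale.Agent.P028.R226.Phase
attribute [-instance] ProperSMul.toContinuousSMul IsTopologicalTorsor.toContinuousSMul IdemSemiring.toCanonicallyOrderedAdd IdemSemiring.toMulLeftMono IdemSemiring.toMulRightMono AddQuantale.instAddLeftMono AddQuantale.instAddRightMono Quantale.instMulLeftMono Quantale.instMulRightMono FiniteDimensional.rclike_to_real IsScalarTower.complexToReal FiniteDimensional.complexToReal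

/-!
# The number of fractions in a column

Elements with the same outer word (virtual deficits `Mv`), adoption stages `st`, radii `ps` and
fractions `G`; their radius at the adoption is tiny against the complexity.  Elements whose
radii have the same size have the same fraction; if the radii at the last stage are at most `κ ^ 2`
then all the denominators divide one number `B ≤ κ ^ 7`.
-/

namespace Vale.P028.PA

open Finset

/-- two different fractions of complexity at most `κ` -/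
theorem Kc_sep {γ ψ₁ ψ₂ κ : ℝ} (h1 : 0 < ψ₁) (h2 : 0 < ψ₂) {M : ℕ} (hM : 0 < M) {F₁ F₂ : ℚ}
    (hF : F₁ ≠ F₂) (k1 : Kc γ ψ₁ M F₁ ≤ κ) (k2 : Kc γ ψ₂ M F₂ ≤ κ) :
    1 ≤ κ ^ 3 * (M * ψ₁ + M * ψ₂) := by
  have hMr : (0 : ℝ) < M := by exact_mod_cast hM
  have hMq : ((M : ℚ)) ≠ 0 := by exact_mod_cast hM.ne'
  have hκ0 : 0 < κ := lt_of_lt_of_le (Kc_pos γ ψ₁ M F₁) k1
  have hne' : (M : ℚ) * F₁ ≠ (M : ℚ) * F₂ := fun h => hF (mul_left_cancel₀ hMq h)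
  have key := rat_sep hne'
  push_cast at key
  have a1 : |(M : ℝ) * F₁ - M * F₂| ≤ κ * (M * ψ₁ + M * ψ₂) := by
    rw [← mul_sub, abs_mul, abs_of_pos hMr]
    have b1 := abs_le_Kc (γ := γ) h1 M F₁
    have b2 := abs_le_Kc (γ := γ) h2 M F₂
    have b3 : |(F₁ : ℝ) - F₂| ≤ |γ - F₁| + |γ - F₂| := by
      have : (F₁ : ℝ) - F₂ = (γ - F₂) - (γ - F₁) := by ring
      rw [this]
      refine (abs_sub _ _).trans ?_
      linarith
    have b4 : Kc γ ψ₁ M F₁ * ψ₁ ≤ κ * ψ₁ := mul_le_mul_of_nonneg_right k1 h1.le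
    have b5 : Kc γ ψ₂ M F₂ * ψ₂ ≤ κ * ψ₂ := mul_le_mul_of_nonneg_right k2 h2.le
    calc (M : ℝ) * |(F₁ : ℝ) - F₂| ≤ M * (κ * ψ₁ + κ * ψ₂) :=
          mul_le_mul_of_nonneg_left (by linarith) hMr.le
      _ = κ * (M * ψ₁ + M * ψ₂) := by ring
  have d1 : ((((M : ℚ) * F₁).den : ℕ) : ℝ) ≤ κ := (den_le_Kc γ ψ₁ M F₁).trans k1
  have d2 : ((((M : ℚ) * F₂).den : ℕ) : ℝ) ≤ κ := (den_le_Kc γ ψ₂ M F₂).trans k2
  have d12 : ((((M : ℚ) * F₁).den : ℕ) : ℝ) * ((((M : ℚ) * F₂).den : ℕ) : ℝ) ≤ κ * κ :=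
    mul_le_mul d1 d2 (Nat.cast_nonneg _) hκ0.le
  have hp : 0 ≤ (M : ℝ) * ψ₁ + M * ψ₂ := by positivity
  have : |(M : ℝ) * F₁ - M * F₂| * (((((M : ℚ) * F₁).den : ℕ) : ℝ) *
      ((((M : ℚ) * F₂).den : ℕ) : ℝ)) ≤ κ * (M * ψ₁ + M * ψ₂) * (κ * κ) :=
    mul_le_mul a1 d12 (by positivity) (by positivity)
  nlinarith

/-- a common multiple of the denominators, class by class -/
theorem cls_den {α : Type*} {R : Finset α} {st : α → ℕ} {G : α → ℚ} {Mv : ℕ → ℕ}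
    (hM : ∀ i j, i ≤ j → Mv i ∣ Mv j) {κ : ℝ} (hκ : 1 ≤ κ)
    (hd : ∀ x ∈ R, ((((Mv (st x) : ℚ) * G x).den : ℕ) : ℝ) ≤ κ) {cl : α → ℕ} {n : ℕ}
    (hcl : ∀ x ∈ R, cl x < n) (huni : ∀ x ∈ R, ∀ x' ∈ R, cl x = cl x' → G x = G x') :
    ∃ B : ℕ, 0 < B ∧ (B : ℝ) ≤ κ ^ n ∧ ∀ x ∈ R, ((Mv (st x) : ℚ) * G x).den ∣ B := by
  classical
  have hex : ∀ k : ℕ, ∃ B : ℕ, 0 < B ∧ (B : ℝ) ≤ κ ∧
      ∀ x ∈ R, cl x = k → ((Mv (st x) : ℚ) * G x).den ∣ B := by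
    intro k
    rcases (R.filter (fun x => cl x = k)).eq_empty_or_nonempty with h | h
    · refine ⟨1, one_pos, by simpa using hκ, fun x hx hk => ?_⟩
      have : x ∈ R.filter (fun x => cl x = k) := mem_filter.2 ⟨hx, hk⟩
      rw [h] at this
      exact absurd this (notMem_empty _)
    · obtain ⟨x1, hx1, hmin⟩ := exists_min_image _ st h
      obtain ⟨h1, h1'⟩ := mem_filter.1 hx1
      refine ⟨((Mv (st x1) : ℚ) * G x1).den, Rat.den_pos _, hd x1 h1, fun x hx hk => ?_⟩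
      have h2 := hmin x (mem_filter.2 ⟨hx, hk⟩)
      rw [huni x hx x1 h1 (hk.trans h1'.symm)]
      obtain ⟨m, hm⟩ := hM _ _ h2
      have e : ((Mv (st x) : ℚ) * G x1) = (m : ℚ) * ((Mv (st x1) : ℚ) * G x1) := by
        rw [hm]; push_cast; ring
      rw [e]
      exact den_mul_dvd m _
  choose B hB0 hB1 hB2 using hex
  refine ⟨∏ k ∈ range n, B k, prod_pos fun k _ => hB0 k, ?_, fun x hx => ?_⟩
  · push_cast
    calc ∏ k ∈ range n, (B k : ℝ) ≤ ∏ _k ∈ range n, κ :=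
          prod_le_prod (fun k _ => Nat.cast_nonneg _) fun k _ => hB1 k
      _ = κ ^ n := by rw [prod_const, card_range]
  · exact (hB2 (cl x) x hx rfl).trans (dvd_prod_of_mem _ (mem_range.2 (hcl x hx)))

/-- a family of elements with the same outer word, whose radius at the adoption is tiny -/
structure Fam {α : Type*} (γ κ : ℝ) (R : Finset α) (st : α → ℕ) (ps : α → ℝ) (G : α → ℚ)
    (Mv : ℕ → ℕ) : Prop where
  Mv_pos : ∀ j, 0 < Mv j
  Mv_dvd : ∀ i j, i ≤ j → Mv i ∣ Mv j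
  ps_pos : ∀ x ∈ R, 0 < ps x
  K_le : ∀ x ∈ R, Kc γ (ps x) (Mv (st x)) (G x) ≤ κ
  rho_le : ∀ x ∈ R, (Mv (st x) : ℝ) * ps x ≤ κ ^ (-(4 : ℝ))

variable {α : Type*} {γ κ : ℝ} {R : Finset α} {st : α → ℕ} {ps : α → ℝ} {G : α → ℚ} {Mv : ℕ → ℕ}

theorem Fam.sub (H : Fam γ κ R st ps G Mv) {R' : Finset α} (h : R' ⊆ R) :
    Fam γ κ R' st ps G Mv :=
  ⟨H.Mv_pos, H.Mv_dvd, fun x hx => H.ps_pos x (h hx), fun x hx => H.K_le x (h hx),
    fun x hx => H.rho_le x (h hx)⟩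

/-- separation of two elements with different fractions -/
theorem Fam.sep (H : Fam γ κ R st ps G Mv) {x x' : α} (hx : x ∈ R) (hx' : x' ∈ R)
    (hst : st x ≤ st x') (hG : G x ≠ G x') :
    1 ≤ κ ^ 3 * ((Mv (st x') : ℝ) * ps x + (Mv (st x') : ℝ) * ps x') :=
  Kc_sep (H.ps_pos x hx) (H.ps_pos x' hx') (H.Mv_pos _) hG
    ((Kc_mono _ _ (H.Mv_dvd _ _ hst) _).trans (H.K_le x hx)) (H.K_le x' hx')

/-- the radii of two elements with different fractions are far apart -/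
theorem Fam.far (H : Fam γ κ R st ps G Mv) (hκ : 4 ≤ κ) {x x' : α} (hx : x ∈ R) (hx' : x' ∈ R)
    (hst : st x ≤ st x') (hG : G x ≠ G x') : κ / 2 * ps x' < ps x := by
  have hκ0 : 0 < κ := by linarith
  have h1 := H.sep hx hx' hst hG
  have h2 := H.rho_le x' hx'
  have hM : (0 : ℝ) < Mv (st x') := by exact_mod_cast H.Mv_pos _
  have e : κ ^ 3 * κ ^ (-(4 : ℝ)) = κ⁻¹ := by
    rw [← Real.rpow_natCast, ← Real.rpow_add hκ0, ← Real.rpow_neg_one]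
    norm_num
  have h3 : κ ^ 3 * ((Mv (st x') : ℝ) * ps x') ≤ κ⁻¹ := by
    rw [← e]
    exact mul_le_mul_of_nonneg_left h2 (by positivity)
  have h4 : κ⁻¹ ≤ 1 / 4 := by
    rw [inv_eq_one_div]
    exact one_div_le_one_div_of_le (by norm_num) hκ
  by_contra hcon
  push Not at hcon
  have h5 : κ ^ 3 * ((Mv (st x') : ℝ) * ps x) ≤ κ ^ 3 * ((Mv (st x') : ℝ) * (κ / 2 * ps x')) :=
    mul_le_mul_of_nonneg_left (mul_le_mul_of_nonneg_left hcon hM.le) (by positivity)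
  have h6 : κ ^ 3 * ((Mv (st x') : ℝ) * (κ / 2 * ps x')) =
      κ / 2 * (κ ^ 3 * ((Mv (st x') : ℝ) * ps x')) := by ring
  have h7 : κ / 2 * (κ ^ 3 * ((Mv (st x') : ℝ) * ps x')) ≤ κ / 2 * κ⁻¹ :=
    mul_le_mul_of_nonneg_left h3 (by positivity)
  have h8 : κ / 2 * κ⁻¹ = 1 / 2 := by field_simp
  linarith

/-- **radii of the same size: one fraction** -/
theorem Fam.uniq (H : Fam γ κ R st ps G Mv) (hκ : 4 ≤ κ)
    (hps : ∀ x ∈ R, ∀ x' ∈ R, ps x ≤ κ / 2 * ps x') {x x' : α} (hx : x ∈ R) (hx' : x' ∈ R) :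
    G x = G x' := by
  by_contra hG
  rcases le_total (st x) (st x') with h | h
  · exact absurd (H.far hκ hx hx' h hG) (not_lt.2 (hps x hx x' hx'))
  · exact absurd (H.far hκ hx' hx h (Ne.symm hG)) (not_lt.2 (hps x' hx' x hx))

open Classical in
/-- the size class of a radius `t` below `T`: the number of factors `κ / 2`, at most `n` -/
noncomputable def scl (κ T : ℝ) (n : ℕ) (t : ℝ) : ℕ :=
  Nat.find (p := fun k => k = n ∨ T * (κ / 2) ^ (-((k : ℝ) + 1)) < t) ⟨n, Or.inl rfl⟩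

theorem scl_le (κ T : ℝ) (n : ℕ) (t : ℝ) : scl κ T n t ≤ n := by
  classical
  unfold scl
  exact Nat.find_min' _ (Or.inl rfl)

/-- the class `k < n`: `T (κ/2)^(-k-1) < t ≤ T (κ/2)^(-k)` -/
theorem scl_lt {κ T : ℝ} {n : ℕ} {t : ℝ} (h : scl κ T n t < n) :
    T * (κ / 2) ^ (-((scl κ T n t : ℝ) + 1)) < t := by
  classical
  have h1 := Nat.find_spec (p := fun k => k = n ∨ T * (κ / 2) ^ (-((k : ℝ) + 1)) < t)
    ⟨n, Or.inl rfl⟩
  rcases h1 with h1 | h1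
  · unfold scl at h
    exact absurd h1 h.ne
  · exact h1

theorem scl_ge {κ T : ℝ} {n : ℕ} {t : ℝ} (ht : t ≤ T) :
    t ≤ T * (κ / 2) ^ (-(scl κ T n t : ℝ)) := by
  classical
  rcases Nat.eq_zero_or_pos (scl κ T n t) with h | h
  · rw [h]
    simpa using ht
  · obtain ⟨k, hk⟩ : ∃ k, scl κ T n t = k + 1 := ⟨scl κ T n t - 1, by omega⟩
    have h1 : k < scl κ T n t := by omega
    have h2 := Nat.find_min (p := fun k => k = n ∨ T * (κ / 2) ^ (-((k : ℝ) + 1)) < t)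
      ⟨n, Or.inl rfl⟩ h1
    rw [hk]
    push Not at h2
    have := h2.2
    push_cast
    exact this

/-- **The denominators of a column.** If the virtual radii at the last stage are at most `κ ^ 2`,
all the denominators divide one number `B ≤ κ ^ 8`. -/
theorem Fam.den (H : Fam γ κ R st ps G Mv) (hκ : 2 ^ 9 ≤ κ) {J : ℕ} (hJ : ∀ x ∈ R, st x ≤ J)
    (hT : ∀ x ∈ R, (Mv J : ℝ) * ps x ≤ κ ^ 2) :
    ∃ B : ℕ, 0 < B ∧ (B : ℝ) ≤ κ ^ 8 ∧ ∀ x ∈ R, ((Mv (st x) : ℚ) * G x).den ∣ B := by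
  have hκ0 : 0 < κ := lt_of_lt_of_le (by norm_num) hκ
  have hκ4 : (4 : ℝ) ≤ κ := by linarith
  have hk2 : 0 < κ / 2 := by positivity
  refine cls_den H.Mv_dvd (by linarith)
    (fun x hx => (den_le_Kc γ (ps x) _ _).trans (H.K_le x hx))
    (cl := fun x => scl κ (κ ^ 2) 7 ((Mv J : ℝ) * ps x)) (n := 8)
    (fun x _ => Nat.lt_succ_of_le (scl_le _ _ _ _)) ?_
  intro x hx x' hx' hcl
  have hMJ : (0 : ℝ) < Mv J := by exact_mod_cast H.Mv_pos _
  by_contra hG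
  wlog hst : st x ≤ st x' generalizing x x'
  · exact this x' hx' x hx hcl.symm (Ne.symm hG) (le_of_not_ge hst)
  by_cases hlt : scl κ (κ ^ 2) 7 ((Mv J : ℝ) * ps x') < 7
  · have h1 := scl_lt hlt
    have h2 := scl_ge (κ := κ) (n := 7) (hT x hx)
    rw [hcl] at h2
    have h3 := H.far hκ4 hx hx' hst hG
    have h4 : κ / 2 * ((Mv J : ℝ) * ps x') < (Mv J : ℝ) * ps x := by
      have := mul_lt_mul_of_pos_left h3 hMJ
      calc κ / 2 * ((Mv J : ℝ) * ps x') = (Mv J : ℝ) * (κ / 2 * ps x') := by ring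
        _ < _ := this
    set k := scl κ (κ ^ 2) 7 ((Mv J : ℝ) * ps x') with hk
    have h5 : κ / 2 * (κ ^ 2 * (κ / 2) ^ (-((k : ℝ) + 1))) = κ ^ 2 * (κ / 2) ^ (-(k : ℝ)) := by
      have : (κ / 2) ^ (-(k : ℝ)) = (κ / 2) * (κ / 2) ^ (-((k : ℝ) + 1)) := by
        nth_rewrite 2 [← Real.rpow_one (κ / 2)]
        rw [← Real.rpow_add hk2]
        congr 1
        ring
      rw [this]
      ring
    have h6 : κ / 2 * (κ ^ 2 * (κ / 2) ^ (-((k : ℝ) + 1))) < κ / 2 * ((Mv J : ℝ) * ps x') :=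
      mul_lt_mul_of_pos_left h1 hk2
    linarith
  · have h7 : scl κ (κ ^ 2) 7 ((Mv J : ℝ) * ps x') = 7 := le_antisymm (scl_le _ _ _ _)
      (not_lt.1 hlt)
    have h1 := scl_ge (κ := κ) (n := 7) (hT x hx)
    have h2 := scl_ge (κ := κ) (n := 7) (hT x' hx')
    rw [hcl, h7] at h1
    rw [h7] at h2
    have h3 := H.sep hx hx' hst hG
    have hle : (Mv (st x') : ℝ) ≤ Mv J := by
      exact_mod_cast Nat.le_of_dvd (H.Mv_pos _) (H.Mv_dvd _ _ (hJ x' hx'))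
    have hp := H.ps_pos x hx
    have hp' := H.ps_pos x' hx'
    have h4 : (Mv (st x') : ℝ) * ps x + (Mv (st x') : ℝ) * ps x' ≤
        2 * (κ ^ 2 * (κ / 2) ^ (-((7 : ℕ) : ℝ))) := by
      have a1 : (Mv (st x') : ℝ) * ps x ≤ Mv J * ps x := mul_le_mul_of_nonneg_right hle hp.le
      have a2 : (Mv (st x') : ℝ) * ps x' ≤ Mv J * ps x' := mul_le_mul_of_nonneg_right hle hp'.le
      linarith
    have h5 : (κ / 2) ^ (-((7 : ℕ) : ℝ)) = 2 ^ 7 / κ ^ 7 := by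
      rw [Real.rpow_neg hk2.le, Real.rpow_natCast]
      field_simp
    rw [h5] at h4
    have h6 : κ ^ 3 * ((Mv (st x') : ℝ) * ps x + (Mv (st x') : ℝ) * ps x') ≤
        κ ^ 3 * (2 * (κ ^ 2 * (2 ^ 7 / κ ^ 7))) := mul_le_mul_of_nonneg_left h4 (by positivity)
    have h8 : κ ^ 3 * (2 * (κ ^ 2 * (2 ^ 7 / κ ^ 7))) = 2 ^ 8 / κ ^ 2 := by
      have hne : κ ≠ 0 := hκ0.ne'
      field_simp
      try ring
    have h9 : (2 : ℝ) ^ 8 / κ ^ 2 < 1 := by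
      rw [div_lt_one (by positivity)]
      nlinarith
    linarith

end Vale.P028.PA
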