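import Vale.Agent.P028.H132.Rank
import Vale.Agent.P028.H132.RowNumG
import Vale.Agent.P028.H676.Rough
import Vale.Agent.P028.H383.RemX
import Vale.Agent.P028.H758.X2Defs
attribute [-instance] ProperSMul.toContinuousSMul IsTopologicalTorsor.toContinuousSMul IdemSemiring.toCanonicallyOrderedAdd IdemSemiring.toMulLeftMono IdemSemiring.toMulRightMono AddQuantale.instAddLeftMono AddQuantale.instAddRightMono Quantale.instMulLeftMono Quantale.instMulRightMono FiniteDimensional.rclike_to_real IsScalarTower.complexToReal FiniteDimensional.complexToReal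

/-!
# The life of a given rank above a cut

A life of `q` above the cut `x` which pays, or which contains the cut, is determined by its rank,
and it is a function of the group of `q` (part `> x`, dyadic size).
-/

namespace Vale.P028.SK

open Finset CF RN H669 RK

variable {g : Cfg}

/-- the life of `q` which starts at the stage `h` has rank `a`; it pays or contains the cut `x` -/
def LfX (g : Cfg) (c1 : ℝ) (x q a h : ℕ) : Prop :=
  1 ≤ h ∧ h ≤ nst g ∧ Nw g h q ∧ x ≤ z g h ∧ rkx g c1 x q (N g - z g h) = a ∧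
    (Pyw g c1 q (N g - z g h) ∨ N g - x < nxw g q (N g - z g h))

open Classical in
/-- the first stage of the life of rank `a` (`0` if there is none) -/
noncomputable def lfS (g : Cfg) (c1 : ℝ) (x a q : ℕ) : ℕ :=
  if h : ∃ j, LfX g c1 x q a j then h.choose else 0

/-- **a life is determined by its rank** -/
theorem LfX.uniq (hJ : JsOK g.K g.Js) (hX : g.Js ≤ g.X) (hV : g.V ⊆ Icc 1 (N g)) {c1 : ℝ}
    {x q a h h' : ℕ} (hq : q ∈ g.V) (H : LfX g c1 x q a h) (H' : LfX g c1 x q a h') : h = h' := by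
  obtain ⟨h1, h2, h3, h4, h5, h6⟩ := H
  obtain ⟨k1, k2, k3, k4, k5, k6⟩ := H'
  have hm : N g - z g h ∈ NwP g q := mem_NwP.2 ⟨h, h1, h2, h3, rfl⟩
  have hm' : N g - z g h' ∈ NwP g q := mem_NwP.2 ⟨h', k1, k2, k3, rfl⟩
  refine ch_inj hJ hX hV hq h3.ch k3.ch ?_
  have key : ∀ A B : ℕ, A ∈ NwP g q → B ∈ NwP g q → B ≤ N g - x →
      rkx g c1 x q A = a → rkx g c1 x q B = a → (Pyw g c1 q A ∨ N g - x < nxw g q A) →
      ¬ A < B := by
    intro A B hA hB hBx rA rB hpay hlt
    have e1 : nxw g q A ≤ B := nxw_le_of_mem hB hlt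
    have hp : Pyw g c1 q A := by
      rcases hpay with hp | hp
      · exact hp
      · omega
    have e2 := rkx_lt (mem_PyX.2 ⟨hA, e1.trans hBx, hp⟩ : A ∈ PyX g c1 x q) hlt
    omega
  rcases lt_trichotomy (N g - z g h) (N g - z g h') with hl | hl | hl
  · exact absurd hl (key _ _ hm hm' (by omega) h5 k5 h6)
  · exact hl
  · exact absurd hl (key _ _ hm' hm (by omega) k5 h5 k6)

theorem lfS_eq (hJ : JsOK g.K g.Js) (hX : g.Js ≤ g.X) (hV : g.V ⊆ Icc 1 (N g)) {c1 : ℝ}
    {x q a h : ℕ} (hq : q ∈ g.V) (H : LfX g c1 x q a h) : lfS g c1 x a q = h := by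
  have hex : ∃ j, LfX g c1 x q a j := ⟨h, H⟩
  unfold lfS
  rw [dif_pos hex]
  exact LfX.uniq hJ hX hV hq hex.choose_spec H

/-! ### The group determines the lives -/

/-- `q` and `q'` are in the same group at the cut `x` -/
structure SmG (g : Cfg) (x q q' : ℕ) : Prop where
  mq : q ∈ g.V
  mq' : q' ∈ g.V
  rg : rgh x q = rgh x q'
  sts : ∀ j, x ≤ z g j → st g j q = st g j q'

theorem SmG.of {x : ℕ} (h : RD5 g x) {q q' : ℕ} (hq : q ∈ g.V) (hq' : q' ∈ g.V)
    (hr : rgh x q = rgh x q') (hl : Nat.log 2 q = Nat.log 2 q') : SmG g x q q' :=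
  ⟨hq, hq', hr, h q hq q' hq' hr hl⟩

theorem SmG.symm {x q q' : ℕ} (h : SmG g x q q') : SmG g x q' q :=
  ⟨h.mq', h.mq, h.rg.symm, fun j hj => (h.sts j hj).symm⟩

theorem SmG.agL {x q q' : ℕ} (h : SmG g x q q') : AgL g x q q' := by
  intro p hp h1 _
  have h2 : (rgh x q).factorization p = (rgh x q').factorization p := by rw [h.rg]
  rw [rgh_fac, rgh_fac, if_pos h1, if_pos h1] at h2
  exact h2

theorem SmG.nw {x q q' j : ℕ} (h : SmG g x q q') (hj : x ≤ z g j) (hn : Nw g j q) :
    Nw g j q' := by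
  obtain ⟨h1, F, b, h2, h3⟩ := hn
  have h2' : st g j q = some (F, b) := h2
  refine ⟨h1, F, b, ?_, fun c hc => h3 c ?_⟩
  · show st g j q' = some (F, b)
    rw [← h.sts j hj]
    exact h2'
  · have hc' : st g (j - 1) q' = some (F, c) := hc
    show st g (j - 1) q = some (F, c)
    rw [h.sts (j - 1) (hj.trans (z_anti g (by omega)))]
    exact hc'

theorem SmG.nwP {x q q' a : ℕ} (h : SmG g x q q') (hxN : x ≤ N g) (ha : a ≤ N g - x)
    (hm : a ∈ NwP g q) : a ∈ NwP g q' := by
  obtain ⟨j, j1, j2, j3, rfl⟩ := mem_NwP.1 hm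
  exact mem_NwP.2 ⟨j, j1, j2, h.nw (by omega) j3, rfl⟩

/-- the end of a phase, cut at `x` -/
theorem SmG.end_eq {x q q' : ℕ} (h : SmG g x q q') (hxN : x ≤ N g) (a : ℕ) :
    min (nxw g q a) (N g - x) = min (nxw g q' a) (N g - x) := by
  have key : ∀ q q' : ℕ, SmG g x q q' → min (nxw g q a) (N g - x) ≤ nxw g q' a := by
    intro q q' h
    unfold nxw RK.nx
    refine le_min' _ _ _ fun t ht => ?_
    rcases mem_insert.1 ht with rfl | ht
    · exact (min_le_right _ _).trans (Nat.sub_le _ _)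
    · obtain ⟨t1, t2⟩ := mem_filter.1 ht
      rcases le_or_gt t (N g - x) with t3 | t3
      · exact (min_le_left _ _).trans (nxw_le_of_mem (h.symm.nwP hxN t3 t1) t2)
      · exact (min_le_right _ _).trans t3.le
  exact le_antisymm (le_min (key q q' h) (min_le_right _ _))
    (le_min (key q' q h.symm) (min_le_right _ _))

/-- the end of a phase which ends above the cut -/
theorem SmG.nxw_eq {x q q' a : ℕ} (h : SmG g x q q') (hx : 0 < x) (hxN : x ≤ N g)
    (ha : nxw g q a ≤ N g - x) : nxw g q' a = nxw g q a := by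
  have key : ∀ q q' : ℕ, SmG g x q q' → nxw g q a ≤ N g - x → nxw g q' a ≤ nxw g q a := by
    intro q q' h ha
    have h1 : nxw g q a ∈ NwP g q ∧ a < nxw g q a := by
      have h2 := min'_mem (insert (N g) ((NwP g q).filter (fun s => a < s)))
        (insert_nonempty _ _)
      have h3 : nxw g q a = (insert (N g) ((NwP g q).filter (fun s => a < s))).min'
        (insert_nonempty _ _) := rfl
      rw [← h3] at h2
      rcases mem_insert.1 h2 with h4 | h4
      · omega
      · exact mem_filter.1 h4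
    exact nxw_le_of_mem (h.nwP hxN ha h1.1) h1.2
  have h1 := key q q' h ha
  exact le_antisymm h1 (key q' q h.symm (h1.trans ha))

/-- the payment of a phase which ends above the cut -/
theorem SmG.pyw {x q q' a : ℕ} {c1 : ℝ} (h : SmG g x q q') (hx : 0 < x) (hxN : x ≤ N g)
    (ha : nxw g q a ≤ N g - x) (hp : Pyw g c1 q a) : Pyw g c1 q' a := by
  obtain ⟨b, b1, b2, b3⟩ := hp
  refine ⟨b, b1, ?_, ?_⟩
  · rw [h.nxw_eq hx hxN ha]
    exact b2
  · have hag := h.symm.agL
    have e1 : H669.Wk (muw g c1 q') (uw g q') a b = H669.Wk (muw g c1 q) (uw g q) a b := by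
      rw [H669.Wk_congr_muX (μ := muw g c1 q) (μ' := muw g c1 q')
        (fun j _ hj => hag.agS.muw (by omega))]
      exact H669.Wk_congr_type fun j _ hj => (uw_congr hag (by omega)).symm
    rw [e1]
    exact b3

theorem SmG.PyX_eq {x q q' : ℕ} {c1 : ℝ} (h : SmG g x q q') (hx : 0 < x) (hxN : x ≤ N g) :
    PyX g c1 x q = PyX g c1 x q' := by
  have key : ∀ q q' : ℕ, SmG g x q q' → PyX g c1 x q ⊆ PyX g c1 x q' := by
    intro q q' h s hs
    obtain ⟨s1, s2, s3⟩ := mem_PyX.1 hs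
    have hs4 : s ≤ N g - x := by
      obtain ⟨b, b1, b2, -⟩ := s3
      omega
    refine mem_PyX.2 ⟨h.nwP hxN hs4 s1, ?_, h.pyw hx hxN s2 s3⟩
    rw [h.nxw_eq hx hxN s2]
    exact s2
  exact (key q q' h).antisymm (key q' q h.symm)

/-- **the rank is a function of the group** -/
theorem SmG.rkx_eq {x q q' : ℕ} {c1 : ℝ} (h : SmG g x q q') (hx : 0 < x) (hxN : x ≤ N g)
    (a : ℕ) : rkx g c1 x q a = rkx g c1 x q' a := by
  unfold rkx
  rw [h.PyX_eq hx hxN]

/-- **the life of rank `a` is a function of the group** -/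
theorem SmG.lfX {x q q' a j : ℕ} {c1 : ℝ} (h : SmG g x q q') (hx : 0 < x) (hxN : x ≤ N g)
    (H : LfX g c1 x q a j) : LfX g c1 x q' a j := by
  obtain ⟨h1, h2, h3, h4, h5, h6⟩ := H
  refine ⟨h1, h2, h.nw h4 h3, h4, ?_, ?_⟩
  · rw [← h.rkx_eq hx hxN]
    exact h5
  · rcases le_or_gt (nxw g q (N g - z g j)) (N g - x) with h7 | h7
    · refine Or.inl (h.pyw hx hxN h7 ?_)
      rcases h6 with h6 | h6
      · exact h6
      · omega
    · right
      have h8 := h.end_eq hxN (N g - z g j)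
      rw [min_eq_right h7.le] at h8
      by_contra hcon
      push Not at hcon
      have h9 := h.symm.nxw_eq hx hxN hcon
      omega

theorem SmG.lfS_eq (hJ : JsOK g.K g.Js) (hX : g.Js ≤ g.X) (hV : g.V ⊆ Icc 1 (N g)) {c1 : ℝ}
    {x q q' a : ℕ} (h : SmG g x q q') (hx : 0 < x) (hxN : x ≤ N g) :
    lfS g c1 x a q = lfS g c1 x a q' := by
  by_cases hex : ∃ j, LfX g c1 x q a j
  · obtain ⟨j, hj⟩ := hex
    rw [SK.lfS_eq hJ hX hV h.mq hj, SK.lfS_eq hJ hX hV h.mq' (h.lfX hx hxN hj)]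
  · have hex' : ¬ ∃ j, LfX g c1 x q' a j := fun ⟨j, hj⟩ => hex ⟨j, h.symm.lfX hx hxN hj⟩
    unfold lfS
    rw [dif_neg hex, dif_neg hex']

/-! ### The lives of a pair -/

/-- the life of an old element, which pays or is the last one -/
theorem LfX.of_Fs {c1 : ℝ} {x q h i : ℕ} (hF : Fs g q h i) (hi : i ≤ nst g) (hxz : x ≤ z g i)
    (hx : 0 < x) (hN : 0 < N g)
    (hp : Pyw g c1 q (N g - z g h) ∨ ∀ t ∈ NwP g q, t ≤ N g - z g h) :
    LfX g c1 x q (rkx g c1 x q (N g - z g h)) h := by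
  obtain ⟨h1, h2, h3, h4⟩ := hF
  refine ⟨h1, h2.trans hi, h3, hxz.trans (z_anti g h2), rfl, ?_⟩
  rcases hp with hp | hp
  · exact Or.inl hp
  · right
    have h5 : nxw g q (N g - z g h) = N g := by
      rcases nx_mem_or (Ch := NwP g q) (n := N g) (N g - z g h) with h6 | h6
      · exact h6
      · have h7 := min'_mem (insert (N g) ((NwP g q).filter (fun s => N g - z g h < s)))
          (insert_nonempty _ _)
        have h8 : nxw g q (N g - z g h) =
          (insert (N g) ((NwP g q).filter (fun s => N g - z g h < s))).min'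
          (insert_nonempty _ _) := rfl
        rw [← h8] at h7
        rcases mem_insert.1 h7 with h9 | h9
        · exact h9
        · obtain ⟨h10, h11⟩ := mem_filter.1 h9
          have := hp _ h10
          omega
    omega

/-- the life of a new element -/
theorem LfX.of_new {c1 : ℝ} {x r i : ℕ} (h1 : 1 ≤ i) (h2 : i ≤ nst g) (hn : Nw g i r)
    (hxz : x ≤ z g i) (hp : Pyw g c1 r (N g - z g i)) :
    LfX g c1 x r (rkx g c1 x r (N g - z g i)) i :=
  ⟨h1, h2, hn, hxz, rfl, Or.inl hp⟩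

/-- **the first stages of the two lives** -/
theorem lfS_max (hJ : JsOK g.K g.Js) (hX : g.Js ≤ g.X) (hV : g.V ⊆ Icc 1 (N g)) {c1 : ℝ}
    {x q r h i a b : ℕ} (hq : q ∈ g.V) (hr : r ∈ g.V) (hh : h ≤ i) (H : LfX g c1 x q a h)
    (H' : LfX g c1 x r b i) : max (lfS g c1 x a q) (lfS g c1 x b r) = i := by
  rw [lfS_eq hJ hX hV hq H, lfS_eq hJ hX hV hr H']
  exact max_eq_right hh

end Vale.P028.SK
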