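import Vale.Agent.P028.MathlibUsed
import Vale.Agent.P028.H279.X1core
import Vale.Agent.P028.H74.Trunc
attribute [-instance] ProperSMul.toContinuousSMul IsTopologicalTorsor.toContinuousSMul IdemSemiring.toCanonicallyOrderedAdd IdemSemiring.toMulLeftMono IdemSemiring.toMulRightMono AddQuantale.instAddLeftMono AddQuantale.instAddRightMono Quantale.instMulLeftMono Quantale.instMulRightMono FiniteDimensional.rclike_to_real IsScalarTower.complexToReal FiniteDimensional.complexToReal

/-!
# The row between two cuts with general weights, and with the dilution cut at the stage `s`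
-/

namespace Vale.P028.SK

open Finset CF RN

open Classical in
/-- the weight of the labels at `p`, with weights `h` of the adders of `q` and `wv` of the removers
of `r` -/
noncomputable def wGn (g : Cfg) (h : ℕ → ℝ) (wv : ℕ → ℕ → ℝ) (s : ℝ) (t B q r p : ℕ) : ℝ :=
  if t < p ∧ ¬ p ∣ B ∧ r.factorization p < q.factorization p ∧
      q.factorization p = kc g q p then
    h p * ((p ^ (q.factorization p - r.factorization p) : ℕ) : ℝ) ^ (-(1 - s))
  else if t < p ∧ ¬ p ∣ B ∧ q.factorization p < r.factorization p ∧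
      r.factorization p = kc g r p then
    wv r p
  else ((p ^ ((q.factorization p - r.factorization p) +
    (r.factorization p - q.factorization p)) : ℕ) : ℝ) ^ (-(5 / 12 : ℝ))

/-- the removers of `r` -/
noncomputable def RmX (g : Cfg) (t x B q r : ℕ) : Finset ℕ :=
  (prN (N g)).filter (fun p => p ≤ x ∧ t < p ∧ ¬ p ∣ B ∧
    q.factorization p < r.factorization p ∧ r.factorization p = kc g r p)

theorem mem_RmX {g : Cfg} {t x B q r p : ℕ} : p ∈ RmX g t x B q r ↔ (p.Prime ∧ p ≤ N g) ∧
    p ≤ x ∧ t < p ∧ ¬ p ∣ B ∧ q.factorization p < r.factorization p ∧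
      r.factorization p = kc g r p := by
  unfold RmX prN
  rw [mem_filter, mem_filter, mem_Icc]
  constructor
  · rintro ⟨⟨⟨-, h2⟩, h3⟩, h4⟩
    exact ⟨⟨h3, h2⟩, h4⟩
  · rintro ⟨⟨h3, h2⟩, h4⟩
    exact ⟨⟨⟨h3.pos, h2⟩, h3⟩, h4⟩

theorem x1gen {g : Cfg} (hV : g.V ⊆ Icc 1 (N g)) {s : ℝ} (hs : s ≤ 1 / 2) {q t0 t x B : ℕ}
    (hzt : zs g ≤ t) (ht0 : t0 ≤ t) (hq : q ∈ V1 g) (hB : 0 < B) {S : Finset ℕ}
    (hS : ∀ r ∈ S, r ∈ V1 g) {h : ℕ → ℝ} (hh0 : ∀ p, 0 ≤ h p) {wv : ℕ → ℕ → ℝ}
    (hwv : ∀ r p, 0 ≤ wv r p) (Om : Finset ℕ)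
    (hout : ∀ r ∈ S, ∀ r' ∈ S, ∀ p : ℕ, p.Prime → x < p → r.factorization p = r'.factorization p)
    (ha : ∀ r ∈ S, ∀ p : ℕ, p.Prime → t < p → p ≤ x → ¬ p ∣ B →
      r.factorization p < q.factorization p → q.factorization p < kc g q p ∨
        (q.factorization p = kc g q p ∧ p ∈ Om))
    (hb : ∀ r ∈ S, ∀ p : ℕ, p.Prime → t < p → p ≤ x → ¬ p ∣ B →
      q.factorization p < r.factorization p → r.factorization p < kc g r p ∨
        (r.factorization p = kc g r p ∧ ¬ Spl g r p)) {K0 : ℝ} (hK0 : 0 ≤ K0)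
    (hfib : ∀ T ⊆ S, (∀ r ∈ T, ∀ r' ∈ T, ∀ p : ℕ, p.Prime → t0 < p → p ≤ x →
      (if p ∈ RmX g t x B q r then q.factorization p else r.factorization p) =
        (if p ∈ RmX g t x B q r' then q.factorization p else r'.factorization p)) →
      ∑ r ∈ T, ∏ p ∈ RmX g t x B q r, (9 * wv r p) ≤ K0) :
    ∑ r ∈ S, ∏ p ∈ (prN (N g)).filter (fun p => t0 < p ∧ p ≤ x), wGn g h wv s t B q r p ≤
      K0 * Real.exp (4 + 8 * (∑ p ∈ Ioc t0 t, (p : ℝ) ^ (-(5 / 12) : ℝ)) +
        32 * (Real.log B) ^ (7 / 12 : ℝ) + 4 * ∑ p ∈ Om, h p * (p : ℝ) ^ (-(1 - s))) := by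
  classical
  rcases S.eq_empty_or_nonempty with hS0 | ⟨r0, hr0⟩
  · rw [hS0, sum_empty]
    exact mul_nonneg hK0 (Real.exp_pos _).le
  set β : ℕ → ℕ := fun p => if p ≤ x then q.factorization p else r0.factorization p with hβ
  set U : ℕ → Finset ℕ := fun r => (prN (N g)).filter (fun p => p ≤ x ∧ t < p ∧ ¬ p ∣ B ∧
    r.factorization p < q.factorization p ∧ q.factorization p = kc g q p) with hU
  set Vm : ℕ → Finset ℕ := fun r => RmX g t x B q r with hVm
  set D0 : Finset ℕ := (prN (N g)).filter (fun p => t < p ∧ q.factorization p < kc g q p) with hD0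
  have hSV : ∀ r ∈ S, r ∈ g.V := fun r hr => (mem_filter.1 (V1_sub g (hS r hr))).1
  have hqV : q ∈ g.V := (mem_filter.1 (V1_sub g hq)).1
  have hbig : ∀ r ∈ g.V, ∀ p, N g < p → r.factorization p = 0 := fun r hr p hp => by
    have := mem_Icc.1 (hV hr)
    exact Nat.factorization_eq_zero_of_lt (by omega)
  have hmem : ∀ {p : ℕ}, p ∈ prN (N g) ↔ p.Prime ∧ p ≤ N g := by
    intro p
    unfold prN
    rw [mem_filter, mem_Icc]
    constructor
    · rintro ⟨⟨-, h2⟩, h3⟩
      exact ⟨h3, h2⟩
    · rintro ⟨h3, h2⟩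
      exact ⟨⟨h3.pos, h2⟩, h3⟩
  have hβ0 : ∀ p, N g < p → β p = 0 := by
    intro p hp
    show (if p ≤ x then q.factorization p else r0.factorization p) = 0
    split_ifs
    · exact hbig q hqV p hp
    · exact hbig r0 (hSV r0 hr0) p hp
  have hβx : ∀ p, p ≤ x → β p = q.factorization p := fun p hp => if_pos hp
  have hβx' : ∀ r ∈ S, ∀ p : ℕ, p.Prime → x < p → β p = r.factorization p := by
    intro r hr p hp hlt
    show (if p ≤ x then q.factorization p else r0.factorization p) = _
    rw [if_neg (not_le.2 hlt)]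
    exact hout r0 hr0 r hr p hp hlt
  have hXR : ∀ r ∈ S, XR g β D0 Om B t U Vm r := by
    intro r hr
    refine ⟨hSV r hr, (mem_filter.1 (hS r hr)).2, ?_, ?_, ?_, ?_, ?_⟩
    · intro p hp
      obtain ⟨i1, i2, i3, i4, i5, i6⟩ := mem_filter.1 hp
      obtain ⟨j1, j2⟩ := hmem.1 i1
      refine ⟨by rw [hβx p i2]; exact i5, ?_⟩
      rcases ha r hr p j1 i3 i2 i4 i5 with h' | h'
      · omega
      · exact h'.2
    · intro p hp
      obtain ⟨⟨j1, j2⟩, i2, i3, i4, i5, i6⟩ := mem_RmX.1 hp
      exact ⟨j1, i3, j2⟩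
    · intro p hp
      obtain ⟨⟨j1, j2⟩, i2, i3, i4, i5, i6⟩ := mem_RmX.1 hp
      refine ⟨by rw [hβx p i2]; exact i5, ?_⟩
      rcases hb r hr p j1 i3 i2 i4 i5 with h' | h'
      · omega
      · exact h'.2
    · intro p hp htp hpN hpB hpU hlt
      rcases le_or_gt p x with hpx | hpx
      · rw [hβx p hpx] at hlt ⊢
        rcases ha r hr p hp htp hpx hpB hlt with h' | h'
        · exact Or.inl (mem_filter.2 ⟨hmem.2 ⟨hp, hpN⟩, htp, h'⟩)
        · exact absurd (mem_filter.2 ⟨hmem.2 ⟨hp, hpN⟩, hpx, htp, hpB, hlt, h'.1⟩) hpU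
      · rw [hβx' r hr p hp hpx] at hlt
        omega
    · intro p hp htp hpN hpB hpV hlt
      rcases le_or_gt p x with hpx | hpx
      · rw [hβx p hpx] at hlt
        rcases hb r hr p hp htp hpx hpB hlt with h' | h'
        · exact h'
        · exact absurd (mem_RmX.2 ⟨⟨hp, hpN⟩, hpx, htp, hpB, hlt, h'.1⟩) hpV
      · rw [hβx' r hr p hp hpx] at hlt
        omega
  set ω : ℕ → ℝ := fun r => ∏ p ∈ Vm r, wv r p with hω
  have hω0 : ∀ r, 0 ≤ ω r := fun r => prod_nonneg fun p _ => hwv r p
  have key := x1t hV hβ0 hzt hB hh0 hs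
    (dev_sum_le hzt (mem_filter.1 hq).2) hXR hω0 (K0 := K0) hK0 (t0 := t0) (by
      intro T hT hTe
      refine le_trans (sum_le_sum fun r hr => ?_) (hfib T hT fun r hr r' hr' p hp htp hpx => ?_)
      · show (∏ p ∈ Vm r, wv r p) * _ ≤ _
        rw [← prod_mul_distrib]
        refine prod_le_prod (fun p hp => ?_) fun p hp => ?_
        · have : 0 ≤ (p : ℝ) ^ (-(5 / 12) : ℝ) := by positivity
          exact mul_nonneg (hwv r p) (by linarith)
        · obtain ⟨⟨j1, j2⟩, -⟩ := mem_RmX.1 hp
          have hp1 : (1 : ℝ) ≤ p := by exact_mod_cast j1.one_lt.le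
          have h5 : (p : ℝ) ^ (-(5 / 12) : ℝ) ≤ 1 :=
            Real.rpow_le_one_of_one_le_of_nonpos hp1 (by norm_num)
          have h6 := hwv r p
          nlinarith
      · have := hTe r hr r' hr' p hp htp
        rwa [hβx p hpx] at this)
  have hpt : ∀ r ∈ S, ∏ p ∈ (prN (N g)).filter (fun p => t0 < p ∧ p ≤ x),
      wGn g h wv s t B q r p = ω r * ∏ p ∈ prN (N g), wX β h s t0 U Vm p r := by
    intro r hr
    have e1 : ∏ p ∈ prN (N g), wX β h s t0 U Vm p r =
        ∏ p ∈ (prN (N g)).filter (fun p => t0 < p ∧ p ≤ x), wX β h s t0 U Vm p r := by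
      rw [prod_filter]
      refine prod_congr rfl fun p hp => ?_
      split_ifs with h'
      · rfl
      · unfold wX
        split_ifs with i1 i2 i3
        · rfl
        · have := (mem_filter.1 i2).2.1
          exact absurd ⟨not_le.1 i1, this⟩ h'
        · rfl
        · have hxp : x < p := by
            by_contra hcon
            exact h' ⟨not_le.1 i1, not_lt.1 hcon⟩
          rw [hβx' r hr p (hmem.1 hp).1 hxp]
          unfold ad
          rw [Nat.sub_self, add_zero, pow_zero]
    have e2 : ω r = ∏ p ∈ (prN (N g)).filter (fun p => t0 < p ∧ p ≤ x),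
        (if p ∈ Vm r then wv r p else 1) := by
      show ∏ p ∈ Vm r, _ = _
      rw [← prod_filter]
      refine prod_congr ?_ fun _ _ => rfl
      ext p
      constructor
      · intro hp
        obtain ⟨j1, i2, i3, -⟩ := mem_RmX.1 hp
        exact mem_filter.2 ⟨mem_filter.2 ⟨hmem.2 j1, by omega, i2⟩, hp⟩
      · exact fun hp => (mem_filter.1 hp).2
    rw [e1, e2, ← prod_mul_distrib]
    refine prod_congr rfl fun p hp => ?_
    obtain ⟨i1, i2, i3⟩ := mem_filter.1 hp
    obtain ⟨j1, j2⟩ := hmem.1 i1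
    have hp0 : (0 : ℝ) < p := by exact_mod_cast j1.pos
    unfold wGn wX
    rw [if_neg (not_le.2 i2)]
    by_cases hU' : t < p ∧ ¬ p ∣ B ∧ r.factorization p < q.factorization p ∧
      q.factorization p = kc g q p
    · obtain ⟨k1, k2, k3, k4⟩ := hU'
      have m1 : p ∈ U r := mem_filter.2 ⟨i1, i3, k1, k2, k3, k4⟩
      have m2 : p ∉ Vm r := fun hm => by
        have := (mem_RmX.1 hm).2.2.2.2.1
        omega
      rw [if_pos ⟨k1, k2, k3, k4⟩, if_neg m2, if_pos m1, one_mul, hβx p i3]
      congr 1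
      push_cast
      rw [← Real.rpow_natCast, ← Real.rpow_natCast, ← Real.rpow_mul hp0.le,
        ← Real.rpow_mul hp0.le]
      congr 1
      ring
    · have m1 : p ∉ U r := fun hm => by
        obtain ⟨-, -, k1, k2, k3, k4⟩ := mem_filter.1 hm
        exact hU' ⟨k1, k2, k3, k4⟩
      rw [if_neg hU', if_neg m1]
      by_cases hV' : t < p ∧ ¬ p ∣ B ∧ q.factorization p < r.factorization p ∧
        r.factorization p = kc g r p
      · obtain ⟨k1, k2, k3, k4⟩ := hV'
        have m2 : p ∈ Vm r := mem_RmX.2 ⟨⟨j1, j2⟩, i3, k1, k2, k3, k4⟩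
        rw [if_pos ⟨k1, k2, k3, k4⟩, if_pos m2, if_pos m2, mul_one]
      · have m2 : p ∉ Vm r := fun hm => by
          obtain ⟨-, -, k1, k2, k3, k4⟩ := mem_RmX.1 hm
          exact hV' ⟨k1, k2, k3, k4⟩
        rw [if_neg hV', if_neg m2, if_neg m2, one_mul, hβx p i3]
        unfold ad
        push_cast
        rw [← Real.rpow_natCast, ← Real.rpow_natCast, ← Real.rpow_mul hp0.le,
          ← Real.rpow_mul hp0.le]
        congr 1
        ring
  rw [sum_congr rfl hpt]
  exact key

/-- **The row at the level of the stage `s`** (primes in `(z_s, x]`), with the dilution cut at `s`: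
the adders of `q` with the weight `lam * dsg .. q p`, the removers of `r` with `lam * dsg .. r p`;
the elements of `S` have distinct labels above `z_s` and equal labels above `x`. -/
theorem x1dsg {g : Cfg} (hV : g.V ⊆ Icc 1 (N g)) {c1 c lam s : ℝ} (h1 : 0 < c1)
    (hc1 : c1 ≤ Real.exp (-8)) (hz : 2 ≤ c1 * zs g) (hc : 0 ≤ c) (hc' : c ≤ 1 / 1000)
    (hl : 1 ≤ lam) (hl' : lam ≤ 2) (hs : 0 ≤ s) (hs' : s ≤ 1 / 4) {q x B i m : ℕ}
    (hzm : zs g ≤ z g m) (hxi : x ≤ z g i) (hxs : (x : ℝ) ^ s ≤ Real.exp 8)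
    (hq : q ∈ V1 g) (hB : 0 < B) {S : Finset ℕ} (hS : ∀ r ∈ S, r ∈ V1 g)
    (hout : ∀ r ∈ S, ∀ r' ∈ S, ∀ p : ℕ, p.Prime → x < p → r.factorization p = r'.factorization p)
    (hinj : ∀ r ∈ S, ∀ r' ∈ S, (∀ p : ℕ, p.Prime → z g m < p →
      r.factorization p = r'.factorization p) → r = r') (tq : ℕ) (tr : ℕ → ℕ)
    (htr : ∀ r ∈ S, tr r ≤ i)
    (ha : ∀ r ∈ S, ∀ p : ℕ, p.Prime → z g m < p → p ≤ x → ¬ p ∣ B →
      r.factorization p < q.factorization p → q.factorization p < kc g q p ∨
        (q.factorization p = kc g q p ∧ p ≤ N g))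
    (hb : ∀ r ∈ S, ∀ p : ℕ, p.Prime → z g m < p → p ≤ x → ¬ p ∣ B →
      q.factorization p < r.factorization p → r.factorization p < kc g r p ∨
        (r.factorization p = kc g r p ∧ ¬ Spl g r p)) :
    ∑ r ∈ S, ∏ p ∈ (prN (N g)).filter (fun p => z g m < p ∧ p ≤ x),
      wGn g (fun p => lam * dsg g c1 c m (N g - z g tq) q p)
        (fun r p => lam * dsg g c1 c m (N g - z g (tr r)) r p) s (z g m) B q r p ≤
      Real.exp (6 + 32 * (Real.log B) ^ (7 / 12 : ℝ)) := by
  classical
  have hdg : ∀ a r p, 0 ≤ dsg g c1 c m a r p := fun a r p => dsg_nonneg h1.le hc m a r p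
  have hSV : ∀ r ∈ S, r ∈ g.V := fun r hr => (mem_filter.1 (V1_sub g (hS r hr))).1
  have hbig : ∀ r ∈ g.V, ∀ p, N g < p → r.factorization p = 0 := fun r hr p hp => by
    have := mem_Icc.1 (hV hr)
    exact Nat.factorization_eq_zero_of_lt (by omega)
  set Om : Finset ℕ := (prN (N g)).filter (fun p => p ≤ x) with hOm
  have hmem : ∀ {p : ℕ}, p ∈ prN (N g) ↔ p.Prime ∧ p ≤ N g := by
    intro p
    unfold prN
    rw [mem_filter, mem_Icc]
    constructor
    · rintro ⟨⟨-, h2⟩, h3⟩
      exact ⟨h3, h2⟩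
    · rintro ⟨h3, h2⟩
      exact ⟨⟨h3.pos, h2⟩, h3⟩
  have key := x1gen (g := g) hV (by linarith : s ≤ 1 / 2) hzm le_rfl hq hB hS
    (h := fun p => lam * dsg g c1 c m (N g - z g tq) q p)
    (fun p => mul_nonneg (by linarith) (hdg _ _ _))
    (wv := fun r p => lam * dsg g c1 c m (N g - z g (tr r)) r p)
    (fun r p => mul_nonneg (by linarith) (hdg _ _ _)) Om (t0 := z g m) (x := x) hout (by
      intro r hr p hp htp hpx hpB hlt
      rcases ha r hr p hp htp hpx hpB hlt with h' | h'
      · exact Or.inl h'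
      · exact Or.inr ⟨h'.1, mem_filter.2 ⟨hmem.2 ⟨hp, h'.2⟩, hpx⟩⟩) hb (K0 := 2)
    (by norm_num) (by
      intro T hT hTe
      rcases T.eq_empty_or_nonempty with hT0 | ⟨r1, hr1⟩
      · rw [hT0, sum_empty]
        norm_num
      have hlc : 9 * lam * c < 1 := by nlinarith
      -- the number with the filled labels
      set fT : ℕ → ℕ := fun p => if p ≤ x then
        (if p ∈ RmX g (z g m) x B q r1 then q.factorization p else r1.factorization p)
        else r1.factorization p with hfT
      set y : ℕ := ∏ p ∈ (prN (N g)).filter (fun p => z g m < p), p ^ fT p with hy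
      have hyf : ∀ p : ℕ, p.Prime → z g m < p → p ≤ N g → y.factorization p = fT p := by
        intro p hp hzp hpN
        have hpm : p ∈ (prN (N g)).filter (fun p => z g m < p) :=
          mem_filter.2 ⟨hmem.2 ⟨hp, hpN⟩, hzp⟩
        rw [hy, Nat.factorization_prod fun a ha' =>
          pow_ne_zero _ (hmem.1 (mem_filter.1 ha').1).1.ne_zero, Finset.sum_apply']
        rw [sum_eq_single p]
        · rw [hp.factorization_pow, Finsupp.single_eq_same]
        · intro b hb' hbp
          rw [(hmem.1 (mem_filter.1 hb').1).1.factorization_pow,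
            Finsupp.single_eq_of_ne (Ne.symm hbp)]
        · exact fun h => absurd hpm h
      have r1' := dsg_removers (g := g) h1 hz (by positivity : 0 ≤ 9 * lam * c) hlc T y i m
        (fun r => r) (fun r => RmX g (z g m) x B q r) tr 1 (fun r hr => hSV r (hT hr))
        (fun r hr => htr r (hT hr)) (by
          intro r hr p hp
          obtain ⟨⟨j1, j2⟩, i2, i3, i4, i5, i6⟩ := mem_RmX.1 hp
          refine ⟨i3, i2.trans hxi, j2, ?_, i6⟩
          rw [hyf p j1 i3 j2]
          show (if p ≤ x then _ else _) < _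
          rw [if_pos i2, hTe r1 hr1 r hr p j1 i3 i2, if_pos hp]
          exact i5) (by
          intro r hr p hp hzp hpN hpR
          rw [hyf p hp hzp hpN]
          show (if p ≤ x then _ else _) = _
          split_ifs with i2 i3
          · have := hTe r1 hr1 r hr p hp hzp i2
            rwa [if_pos i3, if_neg hpR] at this
          · have := hTe r1 hr1 r hr p hp hzp i2
            rwa [if_neg i3, if_neg hpR] at this
          · exact hout r1 (hT hr1) r (hT hr) p hp (not_le.1 i2)) (by
          intro A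
          rw [card_le_one]
          intro r hr r' hr'
          obtain ⟨a1, a2⟩ := mem_filter.1 hr
          obtain ⟨b1, b2⟩ := mem_filter.1 hr'
          refine hinj r (hT a1) r' (hT b1) fun p hp hzp => ?_
          rcases le_or_gt p x with hpx | hpx
          · have h3 := hTe r a1 r' b1 p hp hzp hpx
            have h4 : RmX g (z g m) x B q r = RmX g (z g m) x B q r' := a2.trans b2.symm
            rw [← h4] at h3
            by_cases h5 : p ∈ RmX g (z g m) x B q r
            · have h6 := (mem_RmX.1 h5)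
              have h7 := (mem_RmX.1 (h4 ▸ h5))
              -- both have the full exponent; same cells above
              obtain ⟨⟨j1, j2⟩, -, -, -, i5, i6⟩ := h6
              obtain ⟨-, -, -, -, k5, k6⟩ := h7
              rw [i6, k6]
              have hcell : NT.cell g.V (f g) (thr g) (N g) p r =
                  NT.cell g.V (f g) (thr g) (N g) p r' := by
                apply NT.cell_eq
                by_contra hcon
                obtain ⟨p', hpp, hlt, hpN, g1, g2, g3⟩ := NT.exists_sep (hSV r (hT a1)) hcon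
                rcases le_or_gt p' x with hpx' | hpx'
                · have m1 : p' ∉ RmX g (z g m) x B q r := by
                    intro hm
                    rw [h4] at hm
                    have hm' := mem_RmX.1 hm
                    rcases hb r' (hT b1) p' hpp (by omega) hpx' hm'.2.2.2.1 hm'.2.2.2.2.1 with
                      h8 | h8
                    · omega
                    · exact h8.2 g2
                  have h9 := hTe r a1 r' b1 p' hpp (by omega) hpx'
                  rw [if_neg m1, if_neg (h4 ▸ m1)] at h9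
                  exact g3 h9
                · exact g3 (hout r (hT a1) r' (hT b1) p' hpp hpx')
              unfold kc NT.kN
              rw [if_pos j2, if_pos j2]
              have hns : ¬ Spl g r p := by
                rcases hb r (hT a1) p hp hzp hpx (mem_RmX.1 h5).2.2.2.1 i5 with h8 | h8
                · omega
                · exact h8.2
              have hns' : ¬ Spl g r' p := by
                unfold Spl
                rw [← hcell]
                exact hns
              rw [NT.kk_of_not_split hns, NT.kk_of_not_split hns', hcell]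
            · rwa [if_neg h5, if_neg h5] at h3
          · exact hout r (hT a1) r' (hT b1) p hp hpx)
      have e9 : ∀ a r p, dsg g c1 (9 * lam * c) m a r p = 9 * (lam * dsg g c1 c m a r p) := by
        intro a r p
        unfold dsg H669.dl
        split_ifs
        · ring
        · ring
      have e10 : ∑ r ∈ T, ∏ p ∈ RmX g (z g m) x B q r,
          (9 * (lam * dsg g c1 c m (N g - z g (tr r)) r p)) =
          ∑ r ∈ T, ∏ p ∈ RmX g (z g m) x B q r,
            dsg g c1 (9 * lam * c) m (N g - z g (tr r)) r p :=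
        sum_congr rfl fun r _ => prod_congr rfl fun p _ => (e9 _ _ _).symm
      show ∑ r ∈ T, ∏ p ∈ RmX g (z g m) x B q r,
          (9 * (lam * dsg g c1 c m (N g - z g (tr r)) r p)) ≤ 2
      rw [e10]
      refine r1'.trans ?_
      rw [Nat.cast_one, one_mul, div_le_iff₀ (by linarith)]
      nlinarith)
  refine key.trans ?_
  have hOsum : ∑ p ∈ Om, (lam * dsg g c1 c m (N g - z g tq) q p) * (p : ℝ) ^ (-(1 - s)) ≤
      1 / 8 := by
    have g1 := dsg_mass (g := g) h1 hc (s := m) (a := N g - z g tq) (q := q) (P := Om) (by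
      intro p hp
      have := hmem.1 (mem_filter.1 hp).1
      exact ⟨this.1.pos, this.2⟩)
    have g2 : ∑ p ∈ Om, (lam * dsg g c1 c m (N g - z g tq) q p) * (p : ℝ) ^ (-(1 - s)) ≤
        ∑ p ∈ Om, lam * Real.exp 8 * (dsg g c1 c m (N g - z g tq) q p / p) := by
      refine sum_le_sum fun p hp => ?_
      obtain ⟨i1, i2⟩ := mem_filter.1 hp
      obtain ⟨j1, j2⟩ := hmem.1 i1
      have hp0 : (0 : ℝ) < p := by exact_mod_cast j1.pos
      have e1 : (p : ℝ) ^ (-(1 - s)) = (p : ℝ) ^ s * (p : ℝ)⁻¹ := by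
        rw [show -(1 - s) = s + -1 by ring, Real.rpow_add hp0, Real.rpow_neg_one]
      have e2 : (p : ℝ) ^ s ≤ Real.exp 8 :=
        (Real.rpow_le_rpow hp0.le (by exact_mod_cast i2) hs).trans hxs
      rw [e1, div_eq_mul_inv]
      have e3 : 0 ≤ lam * dsg g c1 c m (N g - z g tq) q p * (p : ℝ)⁻¹ :=
        mul_nonneg (mul_nonneg (by linarith) (hdg _ _ _)) (inv_nonneg.2 hp0.le)
      nlinarith [mul_le_mul_of_nonneg_left e2 e3]
    refine g2.trans ?_
    rw [← mul_sum]
    have g3 : Real.exp 8 * c1 ≤ 1 := by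
      calc Real.exp 8 * c1 ≤ Real.exp 8 * Real.exp (-8) :=
            mul_le_mul_of_nonneg_left hc1 (Real.exp_pos _).le
        _ = 1 := by rw [← Real.exp_add]; norm_num
    have g4 : (0:ℝ) ≤ Real.exp 8 := (Real.exp_pos _).le
    calc lam * Real.exp 8 * ∑ p ∈ Om, dsg g c1 c m (N g - z g tq) q p / p ≤
          lam * Real.exp 8 * (c * c1 / 2) :=
          mul_le_mul_of_nonneg_left g1 (mul_nonneg (by linarith) g4)
      _ = lam * c / 2 * (Real.exp 8 * c1) := by ring
      _ ≤ lam * c / 2 * 1 := mul_le_mul_of_nonneg_left g3 (by positivity)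
      _ ≤ 1 / 8 := by nlinarith
  have h2 : (2 : ℝ) ≤ Real.exp 1 := by
    have := Real.add_one_le_exp (1 : ℝ)
    linarith
  rw [Ioc_self, sum_empty, mul_zero, add_zero]
  calc 2 * Real.exp (4 + 32 * (Real.log B) ^ (7 / 12 : ℝ) + 4 * ∑ p ∈ Om,
        (lam * dsg g c1 c m (N g - z g tq) q p) * (p : ℝ) ^ (-(1 - s))) ≤
      Real.exp 1 * Real.exp (4 + 32 * (Real.log B) ^ (7 / 12 : ℝ) + 4 * ∑ p ∈ Om,
        (lam * dsg g c1 c m (N g - z g tq) q p) * (p : ℝ) ^ (-(1 - s))) :=
        mul_le_mul_of_nonneg_right h2 (Real.exp_pos _).le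
    _ = Real.exp (1 + (4 + 32 * (Real.log B) ^ (7 / 12 : ℝ) + 4 * ∑ p ∈ Om,
        (lam * dsg g c1 c m (N g - z g tq) q p) * (p : ℝ) ^ (-(1 - s)))) := by
        rw [← Real.exp_add]
    _ ≤ _ := Real.exp_le_exp.2 (by linarith)

end Vale.P028.SK
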